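import Vale.Agent.P181.Basic

/-!
P181: a power of one product `allPts x` multiplies every symmetrised form into `chowSpan`.
-/

open MvPolynomial

namespace Vale.Agent.P181

variable {a n : ℕ}

lemma coeff_mem_of_eval_mem {S : Submodule ℂ (Pts a n)} {k : ℕ} (p : ℕ → Pts a n)
    (h : ∀ e : ℂ, ∑ j ∈ Finset.range k, e ^ j • p j ∈ S) {j : ℕ} (hj : j < k) : p j ∈ S := by
  by_contra hcon
  obtain ⟨φ, hφ, hS⟩ := Submodule.exists_dual_map_eq_bot_of_notMem hcon inferInstance
  have hzero : ∀ e : ℂ, ∑ j ∈ Finset.range k, e ^ j * φ (p j) = 0 := fun e => by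
    have : φ (∑ j ∈ Finset.range k, e ^ j • p j) ∈ S.map φ := ⟨_, h e, rfl⟩
    rw [hS, Submodule.mem_bot, map_sum] at this
    simpa using this
  set q : Polynomial ℂ := ∑ j ∈ Finset.range k, Polynomial.monomial j (φ (p j)) with hq
  have hq0 : q = 0 := Polynomial.funext fun e => by
    simpa [hq, Polynomial.eval_finsetSum, mul_comm] using hzero e
  apply hφ
  have := congrArg (Polynomial.coeff · j) hq0
  simpa [hq, Polynomial.coeff_monomial, hj] using this

lemma prod_add_mul_mem (x v : Fin n → ℂ) {m : ℕ} (hm : 0 < m) (e : ℂ) :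
    ∏ i, (lin i x ^ m + C e * lin i v ^ m) ∈ chowSpan a n m := by
  classical
  obtain ⟨δ, hδ⟩ := IsAlgClosed.exists_pow_nat_eq (-e) hm
  have hζ : IsPrimitiveRoot (C (Complex.exp (2 * Real.pi * Complex.I / m)) : Pts a n) m :=
    (Complex.isPrimitiveRoot_exp m hm.ne').map_of_injective (MvPolynomial.C_injective _ _)
  have hfac : ∀ i : Fin a, lin i x ^ m + C e * lin i v ^ m =
      ∏ r : Polynomial.nthRootsFinset m (1 : Pts a n), (lin i x - (r : Pts a n) *
        (C δ * lin i v)) := fun i => by
    rw [Finset.prod_coe_sort _ (fun r => lin i x - r * (C δ * lin i v)),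
      ← hζ.pow_sub_pow_eq_prod_sub_mul _ _ hm, mul_pow, ← map_pow, hδ, map_neg]
    ring
  have hconst : ∀ r : Polynomial.nthRootsFinset m (1 : Pts a n), ∃ c : ℂ,
      C c = (r : Pts a n) := fun r => by
    have : NeZero m := ⟨hm.ne'⟩
    obtain ⟨k, -, hk⟩ := hζ.eq_pow_of_pow_eq_one ((Polynomial.mem_nthRootsFinset hm 1).1 r.2)
    exact ⟨_, by rw [map_pow]; exact hk⟩
  choose c hc using hconst
  simp only [hfac]
  rw [Finset.prod_comm]
  have hterm : ∀ r : Polynomial.nthRootsFinset m (1 : Pts a n),
      ∏ i : Fin a, (lin i x - (r : Pts a n) * (C δ * lin i v)) =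
        allPts (x + (-(c r * δ)) • v) := fun r => by
    refine Finset.prod_congr rfl fun i _ => ?_
    rw [lin_add, lin_smul, smul_eq_C_mul, map_neg, map_mul, hc r]
    ring
  simp only [hterm]
  have := prod_allPts_mem (a := a)
    (Finset.univ : Finset (Polynomial.nthRootsFinset m (1 : Pts a n)))
    (fun r => x + (-(c r * δ)) • v)
  rwa [Finset.card_univ, Fintype.card_coe, hζ.card_nthRootsFinset] at this

/-- A form at one point, completed by powers of `x` at the other points. -/
noncomputable def slot (x : Fin n → ℂ) (w : Multiset (Fin n → ℂ)) (i : Fin a) : Pts a n :=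
  (w.map (lin i)).prod * ∏ k ∈ Finset.univ.erase i, lin k x ^ Multiset.card w

lemma slot_add (x : Fin n → ℂ) (w w' : Multiset (Fin n → ℂ)) (i : Fin a) :
    slot x (w + w') i = slot x w i * slot x w' i := by
  simp only [slot, Multiset.map_add, Multiset.prod_add, Multiset.card_add, pow_add,
    Finset.prod_mul_distrib]
  ring

lemma sum_pow_slot_mem (x v : Fin n → ℂ) (m : ℕ) :
    ∑ i : Fin a, lin i v ^ m * ∏ k ∈ Finset.univ.erase i, lin k x ^ m ∈ chowSpan a n m := by
  classical
  rcases Nat.eq_zero_or_pos m with rfl | hm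
  · simp only [pow_zero, Finset.prod_const_one, mul_one]
    exact Submodule.sum_mem _ fun _ _ => one_mem_chowSpan
  rcases Nat.eq_zero_or_pos a with rfl | ha
  · simp
  set p : ℕ → Pts a n := fun j => ∑ B ∈ (Finset.univ : Finset (Fin a)).powersetCard j,
    (∏ i ∈ B, lin i v ^ m) * ∏ k ∈ Finset.univ \ B, lin k x ^ m with hp
  have hall : ∀ e : ℂ, ∑ j ∈ Finset.range (a + 1), e ^ j • p j ∈ chowSpan a n m := fun e => by
    have h := prod_add_mul_mem (a := a) x v hm e
    simp only [add_comm (lin _ x ^ m)] at h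
    rw [Finset.prod_add, Finset.sum_powerset, Finset.card_univ, Fintype.card_fin] at h
    convert h using 1
    refine Finset.sum_congr rfl fun j _ => ?_
    rw [hp, Finset.smul_sum]
    refine Finset.sum_congr rfl fun B hB => ?_
    rw [Finset.prod_mul_distrib, Finset.prod_const, (Finset.mem_powersetCard.1 hB).2,
      ← map_pow, smul_eq_C_mul, mul_assoc]
  have h1 := coeff_mem_of_eval_mem p hall (j := 1) (by omega)
  simpa [hp, Finset.powersetCard_one, Finset.sum_map, Finset.sdiff_singleton_eq_erase] using h1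

lemma sum_powerset_pow {R : Type*} [CommRing R] {m : ℕ} (y : Fin m → R) :
    ∑ B : Finset (Fin m), (-1 : R) ^ (Finset.univ \ B).card * (∑ l ∈ B, y l) ^ m =
      (m.factorial : R) * ∏ l, y l := by
  classical
  have h1 : ∀ B : Finset (Fin m), (∑ l ∈ B, y l) ^ m =
      ∑ f : Fin m → Fin m, if ∀ k, f k ∈ B then ∏ k, y (f k) else 0 := fun B => by
    rw [Finset.sum_pow', ← Finset.sum_filter]
    refine Finset.sum_congr ?_ fun _ _ => rfl
    ext f
    simp [Fintype.mem_piFinset]
  have h2 : ∀ f : Fin m → Fin m,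
      (∑ B : Finset (Fin m), if ∀ k, f k ∈ B then (-1 : R) ^ (Finset.univ \ B).card else 0) =
        if Function.Bijective f then 1 else 0 := fun f => by
    set K := (Finset.univ.image f)ᶜ with hK
    have e : (∑ B : Finset (Fin m), if ∀ k, f k ∈ B then (-1 : R) ^ (Finset.univ \ B).card
        else 0) = ∑ D ∈ K.powerset, (-1 : R) ^ D.card := by
      rw [← Finset.sum_filter]
      refine Finset.sum_nbij' (fun B => Bᶜ) (fun D => Dᶜ) ?_ ?_ ?_ ?_ ?_
      · intro B hB
        simp at hB ⊢
        rw [hK]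
        exact Finset.compl_subset_compl.2 (Finset.image_subset_iff.2 fun k _ => hB k)
      · intro D hD
        simp at hD ⊢
        intro k hk
        have := hD hk
        simp [hK] at this
      · simp
      · simp
      · intro B _
        rw [← Finset.compl_eq_univ_sdiff]
    rw [e]
    have hbij : K = ∅ ↔ Function.Bijective f := by
      rw [hK, Finset.compl_eq_empty_iff, ← Finite.surjective_iff_bijective]
      simp [Finset.eq_univ_iff_forall, Function.Surjective]
    have hz := congrArg (fun z : ℤ => (z : R)) (Finset.sum_powerset_neg_one_pow_card (x := K))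
    simp only [Int.cast_sum, Int.cast_pow, Int.cast_neg, Int.cast_one] at hz
    rw [hz]
    simp only [hbij]
    split_ifs <;> simp
  simp only [h1, Finset.mul_sum]
  rw [Finset.sum_comm]
  have h3 : ∀ f : Fin m → Fin m, (∑ B : Finset (Fin m), (-1 : R) ^ (Finset.univ \ B).card *
      if ∀ k, f k ∈ B then ∏ k, y (f k) else 0) =
      if Function.Bijective f then ∏ l, y l else 0 := fun f => by
    have : ∀ B : Finset (Fin m), ((-1 : R) ^ (Finset.univ \ B).card *
        if ∀ k, f k ∈ B then ∏ k, y (f k) else 0) =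
        (if ∀ k, f k ∈ B then (-1 : R) ^ (Finset.univ \ B).card else 0) * ∏ k, y (f k) :=
      fun B => by split_ifs <;> simp
    simp only [this, ← Finset.sum_mul, h2]
    split_ifs with hf
    · rw [one_mul]; exact hf.prod_comp y
    · rw [zero_mul]
  simp only [h3]
  rw [← Finset.sum_filter, Finset.sum_const, nsmul_eq_mul]
  have hc : (Finset.univ.filter fun f : Fin m → Fin m => Function.Bijective f).card =
      (Finset.univ : Finset (Equiv.Perm (Fin m))).card :=
    Finset.card_bij' (fun f hf => Equiv.ofBijective f (Finset.mem_filter.1 hf).2)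
      (fun σ _ => (σ : Fin m → Fin m)) (fun _ _ => Finset.mem_univ _)
      (fun σ _ => Finset.mem_filter.2 ⟨Finset.mem_univ _, σ.bijective⟩)
      (fun _ _ => rfl) (fun σ _ => by ext k; rfl)
  rw [hc, Finset.card_univ, Fintype.card_perm, Fintype.card_fin]

lemma sum_slot_mem (x : Fin n → ℂ) (w : Multiset (Fin n → ℂ)) :
    ∑ i : Fin a, slot x w i ∈ chowSpan a n (Multiset.card w) := by
  obtain ⟨l, rfl⟩ := Quot.exists_rep w
  set m := l.length with hm
  have hprod : ∀ i : Fin a, (((l : Multiset (Fin n → ℂ))).map (lin i)).prod =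
      ∏ k : Fin m, lin i l[k] := fun i => by
    rw [Multiset.map_coe, Multiset.prod_coe, ← List.prod_ofFn]
    congr 1
    apply List.ext_getElem <;> simp [hm]
  have key : (m.factorial : Pts a n) * ∑ i : Fin a, slot x (l : Multiset (Fin n → ℂ)) i =
      ∑ B : Finset (Fin m), (-1 : Pts a n) ^ (Finset.univ \ B).card *
        ∑ i : Fin a, lin i (∑ k ∈ B, l[k]) ^ m *
          ∏ k ∈ Finset.univ.erase i, lin k x ^ m := by
    simp only [slot, hprod, Multiset.coe_card, ← hm, Finset.mul_sum]
    rw [Finset.sum_comm]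
    refine Finset.sum_congr rfl fun i _ => ?_
    rw [← mul_assoc, ← sum_powerset_pow (fun k : Fin m => lin i l[k]), Finset.sum_mul]
    simp only [lin_finsetSum, mul_assoc]
  have hmem : (m.factorial : Pts a n) * ∑ i : Fin a, slot x (l : Multiset (Fin n → ℂ)) i ∈
      chowSpan a n m := by
    rw [key]
    refine Submodule.sum_mem _ fun B _ => ?_
    rcases neg_one_pow_eq_or (Pts a n) (Finset.univ \ B).card with h | h
    · rw [h, one_mul]; exact sum_pow_slot_mem x _ m
    · rw [h, neg_one_mul]; exact Submodule.neg_mem _ (sum_pow_slot_mem x _ m)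
  rw [← nsmul_eq_mul, ← Nat.cast_smul_eq_nsmul ℂ] at hmem
  exact (Submodule.smul_mem_iff _ (by exact_mod_cast m.factorial_ne_zero)).1 hmem

end Vale.Agent.P181
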