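import Mathlib

/-!
P181: the algebra generated by the products of one linear form over `a` points (basic facts).
-/

open MvPolynomial

namespace Vale.Agent.P181

/-- Polynomials in the coordinates of `a` points of an `n`-dimensional space. -/
abbrev Pts (a n : ℕ) : Type := MvPolynomial (Fin a × Fin n) ℂ

variable {a n : ℕ}

/-- The linear form `v` evaluated at the point `i`. -/
noncomputable def lin (i : Fin a) (v : Fin n → ℂ) : Pts a n := ∑ j, C (v j) * X (i, j)

/-- The product of the linear form `v` over all points. -/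
noncomputable def allPts (v : Fin n → ℂ) : Pts a n := ∏ i, lin i v

/-- Span of the products of `k` such products. -/
noncomputable def chowSpan (a n k : ℕ) : Submodule ℂ (Pts a n) :=
  Submodule.span ℂ {p | ∃ v : Fin k → Fin n → ℂ, p = ∏ l, allPts (v l)}

lemma lin_add (i : Fin a) (v w : Fin n → ℂ) : lin i (v + w) = lin i v + lin i w := by
  simp [lin, add_mul, Finset.sum_add_distrib]

lemma lin_smul (i : Fin a) (c : ℂ) (v : Fin n → ℂ) : lin i (c • v) = c • lin i v := by
  simp only [lin, Pi.smul_apply, smul_eq_mul, map_mul, Finset.smul_sum]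
  exact Finset.sum_congr rfl fun j _ => by rw [smul_eq_C_mul, mul_assoc]

/-- `lin i` as a linear map. -/
noncomputable def linMap (i : Fin a) : (Fin n → ℂ) →ₗ[ℂ] Pts a n where
  toFun := lin i
  map_add' := lin_add i
  map_smul' := lin_smul i

lemma lin_finsetSum {ι : Type*} (i : Fin a) (s : Finset ι) (v : ι → Fin n → ℂ) :
    lin i (∑ x ∈ s, v x) = ∑ x ∈ s, lin i (v x) :=
  map_sum (linMap i) v s

lemma prod_allPts_mem {ι : Type*} (s : Finset ι) (v : ι → Fin n → ℂ) :
    ∏ x ∈ s, allPts (v x) ∈ chowSpan a n s.card := by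
  apply Submodule.subset_span
  refine ⟨fun l => v (s.equivFin.symm l), ?_⟩
  rw [← Finset.prod_coe_sort]
  exact (Equiv.prod_comp s.equivFin.symm (fun x : s => allPts (v x))).symm

lemma mul_mem_chowSpan {j k : ℕ} {p q : Pts a n} (hp : p ∈ chowSpan a n j)
    (hq : q ∈ chowSpan a n k) : p * q ∈ chowSpan a n (j + k) := by
  have h : chowSpan a n j * chowSpan a n k ≤ chowSpan a n (j + k) := by
    unfold chowSpan
    rw [Submodule.span_mul_span]
    apply Submodule.span_mono
    rintro x ⟨y, ⟨v, rfl⟩, z, ⟨w, rfl⟩, rfl⟩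
    refine ⟨Fin.append v w, ?_⟩
    simp [Fin.prod_univ_add]
  exact h (Submodule.mul_mem_mul hp hq)

lemma allPts_pow_mem (v : Fin n → ℂ) (k : ℕ) : allPts v ^ k ∈ chowSpan a n k := by
  simpa using prod_allPts_mem (a := a) (Finset.univ : Finset (Fin k)) (fun _ => v)

lemma one_mem_chowSpan : (1 : Pts a n) ∈ chowSpan a n 0 :=
  Submodule.subset_span ⟨fun l => l.elim0, by simp⟩

/-- Elements of multidegree `(c, …, c)` that are products of linear forms at the points. -/
def formSet (a n c : ℕ) : Set (Pts a n) :=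
  {p | ∃ w : Fin a → Multiset (Fin n → ℂ),
    (∀ i, Multiset.card (w i) = c) ∧ p = ∏ i, ((w i).map (lin i)).prod}

/-- Their span. -/
noncomputable def formSpan (a n c : ℕ) : Submodule ℂ (Pts a n) := Submodule.span ℂ (formSet a n c)

/-- Symmetrisation over the points. -/
noncomputable def symm_ (a n : ℕ) : Pts a n →ₗ[ℂ] Pts a n :=
  ∑ σ : Equiv.Perm (Fin a), (rename (Prod.map σ (id : Fin n → Fin n))).toLinearMap

lemma rename_lin (σ : Equiv.Perm (Fin a)) (i : Fin a) (v : Fin n → ℂ) :
    rename (Prod.map σ id) (lin i v) = lin (σ i) v := by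
  simp [lin, rename_X]

lemma symm_apply (p : Pts a n) :
    symm_ a n p = ∑ σ : Equiv.Perm (Fin a), rename (Prod.map σ id) p := by
  simp [symm_]

lemma symm_allPts_pow_mul (v : Fin n → ℂ) (k : ℕ) (p : Pts a n) :
    symm_ a n (allPts v ^ k * p) = allPts v ^ k * symm_ a n p := by
  rw [symm_apply, symm_apply, Finset.mul_sum]
  refine Finset.sum_congr rfl fun σ _ => ?_
  rw [map_mul, map_pow]
  congr 2
  rw [allPts, map_prod]
  simp only [rename_lin]
  exact Equiv.prod_comp σ (fun i => lin i v)

lemma symm_form (w : Fin a → Multiset (Fin n → ℂ)) :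
    symm_ a n (∏ i, ((w i).map (lin i)).prod) =
      ∑ σ : Equiv.Perm (Fin a), ∏ i, ((w i).map (lin (σ i))).prod := by
  rw [symm_apply]
  refine Finset.sum_congr rfl fun σ _ => ?_
  rw [map_prod]
  refine Finset.prod_congr rfl fun i _ => ?_
  rw [map_multiset_prod, Multiset.map_map]
  simp [rename_lin]

end Vale.Agent.P181
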