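import Vale.Agent.P181.Cover

/-!
P181: for `(a - 1) ^ 2 ≤ b` every symmetrised form of multidegree `b` is in `chowSpan a n b`,
by induction on `a`.

With `a + 1` points: the slot lemma puts an arbitrary form of degree `a` at the point `0`, the
other points carrying `x ^ a`; each further product of a linear form over all points is then
decoupled from the point `0` by `cover_step`; the other `a` points are filled by induction and
by `cover`.
-/

open MvPolynomial

namespace Vale.Agent.P181

variable {a n : ℕ}

lemma symm_rename (τ : Equiv.Perm (Fin a)) (p : Pts a n) :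
    symm_ a n (rename (Prod.map τ id) p) = symm_ a n p := by
  rw [symm_apply, symm_apply]
  refine Fintype.sum_equiv (Equiv.mulRight τ) _ _ fun σ => ?_
  rw [rename_rename]
  congr 1

/-- A form `u` at the point `0` next to `x ^ |u|` at the other points symmetrises into
`chowSpan`. -/
lemma symm_slot_mem (x : Fin n → ℂ) (u : Multiset (Fin n → ℂ)) :
    symm_ (a + 1) n (slot x u 0) ∈ chowSpan (a + 1) n (Multiset.card u) := by
  classical
  have hσ : ∀ σ : Equiv.Perm (Fin (a + 1)),
      rename (Prod.map σ id) (slot x u 0) = slot x u (σ 0) := fun σ => by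
    simp only [slot, map_mul, map_prod, map_pow, map_multiset_prod, Multiset.map_map, rename_lin,
      Function.comp_def]
    congr 1
    refine Finset.prod_equiv σ (fun i => ?_) (fun i _ => rfl)
    simp
  rw [symm_apply]
  simp only [hσ]
  rw [← (Equiv.Perm.decomposeFin (n := a)).symm.sum_comp, Fintype.sum_prod_type]
  simp only [Equiv.Perm.decomposeFin_symm_apply_zero, Finset.sum_const, Finset.card_univ,
    ← Finset.smul_sum]
  rw [← Nat.cast_smul_eq_nsmul ℂ]
  exact Submodule.smul_mem _ _ (sum_slot_mem x u)

/-- The forms at the points `1, ..., a`, pushed to `a + 1` points. -/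
noncomputable def shiftPts (a n : ℕ) : Pts a n →ₐ[ℂ] Pts (a + 1) n :=
  rename (Prod.map Fin.succ id)

lemma shiftPts_lin (i : Fin a) (v : Fin n → ℂ) : shiftPts a n (lin i v) = lin i.succ v := by
  simp [shiftPts, lin, rename_X]

lemma shiftPts_allPts (v : Fin n → ℂ) :
    shiftPts a n (allPts v) = ∏ i : Fin a, lin i.succ v := by
  simp [allPts, map_prod, shiftPts_lin]

/-- Each product over all points is decoupled from the point `0`. -/
lemma symm_decouple_mem : ∀ (t : ℕ) (x : Fin n → ℂ) (Y : Fin t → Fin n → ℂ)
    (w : Multiset (Fin n → ℂ)), Multiset.card w = a + t →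
    symm_ (a + 1) n ((w.map (lin 0)).prod *
      shiftPts a n (allPts x ^ a * ∏ l, allPts (Y l))) ∈ chowSpan (a + 1) n (a + t) := by
  classical
  intro t
  induction t with
  | zero =>
    intro x Y w hw
    have h := symm_slot_mem (a := a) x w
    rw [hw] at h
    convert h using 2
    have he : Finset.univ.erase (0 : Fin (a + 1)) = Finset.univ.image Fin.succ := by
      ext i
      simp [Fin.exists_succ_eq]
    simp only [Finset.univ_eq_empty, Finset.prod_empty, mul_one, map_pow, shiftPts_allPts, slot,
      hw, he, add_zero]
    rw [Finset.prod_image (fun i _ j _ h => Fin.succ_injective _ h), Finset.prod_pow]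
  | succ t ih =>
    intro x Y w hw
    set K := (chowSpan (a + 1) n (a + (t + 1))).comap (symm_ (a + 1) n) with hK
    set G := shiftPts a n (allPts x ^ a * ∏ l : Fin t, allPts (Y l.succ)) with hG
    set s : Finset (Fin (a + 1)) := Finset.univ.image Fin.succ with hs
    have hsum : ∑ i ∈ s, (1 : ℕ) = a := by
      simp [hs, Finset.card_compl]
    have hpr : ∀ y : Fin n → ℂ, ∏ i ∈ s, lin i y ^ 1 = shiftPts a n (allPts y) := fun y => by
      rw [hs, Finset.prod_image (fun i _ j _ h => Fin.succ_injective _ h), shiftPts_allPts]
      simp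
    have hstep := cover_step K G s (fun _ => 1) 0 (m := 1) (e := a + (t + 1)) (by omega)
      (fun y u hu => ?_) (Y 0) w hw
    · have h : symm_ (a + 1) n _ ∈ chowSpan (a + 1) n (a + (t + 1)) := hstep
      convert h using 2
      rw [hpr, hG, Fin.prod_univ_succ, map_mul, map_mul, map_mul]
      ring
    · show symm_ (a + 1) n _ ∈ chowSpan (a + 1) n (a + (t + 1))
      have hall : (∏ i ∈ s, lin i y ^ 1) * lin 0 y ^ 1 = allPts y ^ 1 := by
        rw [hpr, shiftPts_allPts, pow_one, pow_one]
        conv_rhs => rw [allPts, Fin.prod_univ_succ]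
        ring
      rw [hall, mul_assoc, symm_allPts_pow_mul]
      have h := mul_mem_chowSpan (allPts_pow_mem (a := a + 1) y 1)
        (ih x (fun l => Y l.succ) u (by omega))
      rwa [show 1 + (a + t) = a + (t + 1) by omega] at h

/-- Every symmetrised form of multidegree `b` is in `chowSpan`. -/
theorem symm_form_mem : ∀ (a b : ℕ), (a - 1) ^ 2 ≤ b →
    ∀ (w : Fin a → Multiset (Fin n → ℂ)), (∀ i, Multiset.card (w i) = b) →
      symm_ a n (∏ i, ((w i).map (lin i)).prod) ∈ chowSpan a n b := by
  classical
  intro a
  induction a with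
  | zero =>
    intro b _ w _
    exact Submodule.subset_span ⟨fun _ => 0, by simp [symm_apply, allPts]⟩
  | succ a ih =>
    intro b hb w hw
    rw [Nat.add_sub_cancel, sq] at hb
    have hab : a ≤ b := le_trans (Nat.le_mul_self a) hb
    obtain ⟨t, rfl⟩ : ∃ t, b = a + t := ⟨b - a, by omega⟩
    have ht : (a - 1) ^ 2 ≤ t := by
      rw [sq]
      rcases Nat.eq_zero_or_pos a with rfl | ha
      · simp
      obtain ⟨m, rfl⟩ : ∃ m, a = m + 1 := ⟨a - 1, by omega⟩
      have e : (m + 1) * (m + 1) = m * m + 2 * m + 1 := by ring
      rw [Nat.add_sub_cancel]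
      omega
    set L : Pts a n →ₗ[ℂ] Pts (a + 1) n := (symm_ (a + 1) n).comp
      ((LinearMap.mulLeft ℂ ((w 0).map (lin 0)).prod).comp (shiftPts a n).toLinearMap) with hL
    have hinv : ∀ (σ : Equiv.Perm (Fin a)) (p : Pts a n),
        L (rename (Prod.map σ id) p) = L p := fun σ p => by
      set τ : Equiv.Perm (Fin (a + 1)) := Equiv.Perm.decomposeFin.symm (0, σ) with hτ
      have hsucc : shiftPts a n (rename (Prod.map σ id) p) =
          rename (Prod.map τ id) (shiftPts a n p) := by
        simp only [shiftPts, rename_rename]
        congr 2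
      have h0 : rename (Prod.map τ id) ((w 0).map (lin 0)).prod = ((w 0).map (lin 0)).prod := by
        simp [map_multiset_prod, Multiset.map_map, rename_lin, hτ]
      simp only [hL, LinearMap.comp_apply, LinearMap.mulLeft_apply, AlgHom.toLinearMap_apply]
      rw [hsucc]
      conv_lhs => rw [← h0, ← map_mul]
      exact symm_rename τ _
    have hprod : ∀ (x : Fin n → ℂ) (p : Pts a n), p ∈ chowSpan a n t →
        L (allPts x ^ a * p) ∈ chowSpan (a + 1) n (a + t) := fun x p hp => by
      refine (Submodule.span_le.2 ?_ : _ ≤ (chowSpan (a + 1) n (a + t)).comap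
        (L.comp (LinearMap.mulLeft ℂ (allPts x ^ a)))) hp
      rintro _ ⟨Y, rfl⟩
      simp only [SetLike.mem_coe, Submodule.mem_comap, LinearMap.comp_apply,
        LinearMap.mulLeft_apply, hL, AlgHom.toLinearMap_apply]
      exact symm_decouple_mem t x Y (w 0) (hw 0)
    have hcov : ∏ i : Fin a, ((w i.succ).map (lin i)).prod ∈
        (chowSpan (a + 1) n (a + t)).comap L := by
      refine cover _ (fun _ => a + t) (fun _ => a) (fun k => ?_) ?_ (fun i => w i.succ)
        (fun i => hw i.succ)
      · refine le_trans (Finset.sum_le_sum_of_subset (Finset.subset_univ _)) ?_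
        simpa using hb
      · intro x u hu
        have hall : ∏ i : Fin a, lin i x ^ a = allPts x ^ a := by
          simp [allPts, Finset.prod_pow]
        rw [hall, Submodule.mem_comap]
        have h := hprod x _ (ih t ht u fun i => by have := hu i; omega)
        rw [symm_apply, Finset.mul_sum, map_sum] at h
        have he : ∀ σ : Equiv.Perm (Fin a),
            L (allPts x ^ a * rename (Prod.map σ id) (∏ i, ((u i).map (lin i)).prod)) =
              L (allPts x ^ a * ∏ i, ((u i).map (lin i)).prod) := fun σ => by
          have hx : rename (Prod.map σ id) (allPts x : Pts a n) = allPts x := by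
            rw [allPts, map_prod]
            simp only [rename_lin]
            exact Equiv.prod_comp σ (fun i => lin i x)
          conv_lhs => rw [← hx, ← map_pow, ← map_mul]
          exact hinv σ _
        simp only [he, Finset.sum_const] at h
        rw [← Nat.cast_smul_eq_nsmul ℂ] at h
        exact (Submodule.smul_mem_iff _
          (by exact_mod_cast (Finset.card_pos.2 Finset.univ_nonempty).ne')).1 h
    rw [Submodule.mem_comap] at hcov
    convert hcov using 1
    simp only [hL, LinearMap.comp_apply, LinearMap.mulLeft_apply, AlgHom.toLinearMap_apply,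
      map_prod, map_multiset_prod, Multiset.map_map, Function.comp_def, shiftPts_lin]
    rw [Fin.prod_univ_succ]

/-- The symmetrised product of `a` powers, for any number of variables. -/
theorem symm_pow_mem {a b n : ℕ} (hb : (a - 1) ^ 2 ≤ b) (v : Fin a → Fin n → ℂ) :
    ∑ σ : Equiv.Perm (Fin a), ∏ i, lin (σ i) (v i) ^ b ∈ chowSpan a n b := by
  have h := symm_form_mem (n := n) a b hb (fun i => Multiset.replicate b (v i))
    fun i => Multiset.card_replicate _ _
  convert h using 1
  rw [symm_form]
  simp [Multiset.map_replicate, Multiset.prod_replicate]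

end Vale.Agent.P181
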