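import Vale.Agent.P181.Absorb

/-!
P181: forms of multidegree `e` are spanned by `∏ i, x(p_i) ^ β i` times forms, `x` running over all
linear forms, as soon as the partial sums satisfy `β 0 + ... + β k ≤ e k`.
-/

open MvPolynomial

namespace Vale.Agent.P181

variable {a n : ℕ}

/-- The linear polynomial `lin i x + T * lin i v` in an auxiliary variable `T`. -/
noncomputable def linePoly (i : Fin a) (x v : Fin n → ℂ) : Polynomial (Pts a n) :=
  Polynomial.C (lin i x) + Polynomial.X * Polynomial.C (lin i v)

lemma linePoly_eval (i : Fin a) (x v : Fin n → ℂ) (e : ℂ) :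
    (linePoly i x v).eval (C e) = lin i (x + e • v) := by
  rw [lin_add, lin_smul, smul_eq_C_mul]
  simp [linePoly]; ring

lemma natDegree_linePoly (i : Fin a) (x v : Fin n → ℂ) : (linePoly i x v).natDegree ≤ 1 := by
  unfold linePoly
  compute_degree

lemma coeff_linePoly_pow (i : Fin a) (x v : Fin n → ℂ) (m l : ℕ) :
    ((linePoly i x v) ^ m).coeff l =
      (m.choose l : Pts a n) * (lin i x ^ (m - l) * lin i v ^ l) := by
  unfold linePoly
  rw [add_comm, add_pow, Polynomial.finsetSum_coeff]
  have hterm : ∀ r : ℕ, ((Polynomial.X * Polynomial.C (lin i v)) ^ r *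
      Polynomial.C (lin i x) ^ (m - r) * (m.choose r : Polynomial (Pts a n))).coeff l =
      if l = r then (m.choose r : Pts a n) * (lin i x ^ (m - r) * lin i v ^ r) else 0 := fun r => by
    rw [mul_pow, ← Polynomial.C_pow, ← Polynomial.C_pow, ← Polynomial.C_eq_natCast, mul_assoc,
      mul_assoc, ← map_mul, ← map_mul, mul_comm, Polynomial.coeff_C_mul_X_pow]
    split_ifs <;> ring
  simp only [hterm]
  rw [Finset.sum_ite_eq]
  split_ifs with hl
  · rfl
  · have : m.choose l = 0 := Nat.choose_eq_zero_of_lt (by simpa using hl)
    simp [this]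

/-- One step: if `F(x) * lin k x ^ m * (forms at k)` lies in `K` for all `x`, where `F` is a
product of powers of `lin i x` of total degree `M` and `M + m ≤ e`, then so does
`F(v) * (forms of degree e at k)`. -/
lemma cover_step (K : Submodule ℂ (Pts a n)) (G : Pts a n) (s : Finset (Fin a)) (β : Fin a → ℕ)
    (k : Fin a) {m e : ℕ} (he : (∑ i ∈ s, β i) + m ≤ e)
    (H : ∀ (x : Fin n → ℂ) (u : Multiset (Fin n → ℂ)), Multiset.card u + m = e →
      (∏ i ∈ s, lin i x ^ β i) * lin k x ^ m * (u.map (lin k)).prod * G ∈ K)
    (v : Fin n → ℂ) (w : Multiset (Fin n → ℂ)) (hw : Multiset.card w = e) :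
    (∏ i ∈ s, lin i v ^ β i) * (w.map (lin k)).prod * G ∈ K := by
  classical
  set T : Finset (Σ _ : Fin a, ℕ) := s.sigma fun i => Finset.range (β i) with hT
  have hTcard : T.card = ∑ i ∈ s, β i := by simp [hT]
  have hTprod : ∀ z : Fin n → ℂ, ∏ p ∈ T, lin p.1 z = ∏ i ∈ s, lin i z ^ β i := fun z => by
    simp [hT, Finset.prod_sigma]
  set M := ∑ i ∈ s, β i with hM
  have key : ∀ j : ℕ, ∀ (x : Fin n → ℂ) (u : Multiset (Fin n → ℂ)),
      Multiset.card u + m + j = e →
      (∏ p ∈ T, linePoly p.1 x v).coeff j * lin k x ^ (m + j) * (u.map (lin k)).prod * G ∈ K := by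
    intro j
    induction j using Nat.strong_induction_on with
    | _ j ih =>
      intro x u hu
      set R := lin k x ^ j * (u.map (lin k)).prod * G with hR
      set P : Polynomial (Pts a n) := (∏ p ∈ T, linePoly p.1 x v) * linePoly k x v ^ m with hP
      set N := M + m + j + 1 with hN
      have hdeg : P.natDegree < N := by
        refine lt_of_le_of_lt Polynomial.natDegree_mul_le ?_
        have h1 : (∏ p ∈ T, linePoly p.1 x v).natDegree ≤ M := by
          refine (Polynomial.natDegree_prod_le _ _).trans ?_
          refine (Finset.sum_le_card_nsmul _ _ 1 fun p _ => natDegree_linePoly _ _ _).trans ?_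
          simp [hTcard]
        have h2 : (linePoly k x v ^ m).natDegree ≤ m := by
          refine Polynomial.natDegree_pow_le.trans ?_
          simpa using Nat.mul_le_mul_left m (natDegree_linePoly k x v)
        omega
      have hall : ∀ ε : ℂ, ∑ i ∈ Finset.range N, ε ^ i • (P.coeff i * R) ∈ K := fun ε => by
        have h := H (x + ε • v) (Multiset.replicate j x + u)
          (by rw [Multiset.card_add, Multiset.card_replicate]; omega)
        have e1 : P.eval (C ε) * R = ∑ i ∈ Finset.range N, ε ^ i • (P.coeff i * R) := by
          rw [Polynomial.eval_eq_sum_range' hdeg, Finset.sum_mul]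
          refine Finset.sum_congr rfl fun i _ => ?_
          rw [smul_eq_C_mul, map_pow]
          ring
        rw [← e1]
        convert h using 1
        rw [hP, Polynomial.eval_mul, Polynomial.eval_prod, Polynomial.eval_pow]
        simp only [linePoly_eval]
        rw [hTprod, hR, Multiset.map_add, Multiset.prod_add, Multiset.map_replicate,
          Multiset.prod_replicate]
        ring
      have hj := coeff_mem_of_eval_mem _ hall (j := j) (by omega)
      rw [hP, Polynomial.coeff_mul, Finset.sum_mul] at hj
      have hmem : (j, 0) ∈ Finset.HasAntidiagonal.antidiagonal j := by simp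
      rw [← Finset.add_sum_erase _ _ hmem] at hj
      have hrest : ∀ p ∈ (Finset.HasAntidiagonal.antidiagonal j).erase (j, 0),
          (∏ q ∈ T, linePoly q.1 x v).coeff p.1 * (linePoly k x v ^ m).coeff p.2 * R ∈ K := by
        intro p hp
        obtain ⟨hne, hsum⟩ := Finset.mem_erase.1 hp
        rw [Finset.HasAntidiagonal.mem_antidiagonal] at hsum
        rw [coeff_linePoly_pow]
        rcases Nat.lt_or_ge m p.2 with hlt | hle
        · simp [Nat.choose_eq_zero_of_lt hlt]
        have hlt : p.1 < j := by
          rcases Nat.eq_zero_or_pos p.2 with h0 | h0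
          · exact absurd (Prod.ext (by omega : p.1 = j) h0) hne
          · omega
        have h := Submodule.smul_mem K (m.choose p.2 : ℂ)
          (ih p.1 hlt x (Multiset.replicate p.2 v + u)
            (by rw [Multiset.card_add, Multiset.card_replicate]; omega))
        rw [Nat.cast_smul_eq_nsmul, nsmul_eq_mul, Multiset.map_add, Multiset.prod_add,
          Multiset.map_replicate, Multiset.prod_replicate] at h
        convert h using 1
        rw [hR, show m + p.1 = (m - p.2) + j by omega, pow_add]
        ring
      have h0 := Submodule.sub_mem K hj (Submodule.sum_mem K hrest)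
      rw [add_sub_cancel_right, coeff_linePoly_pow] at h0
      convert h0 using 1
      rw [hR, pow_add]
      simp
      ring
  have htop : ∀ x, (∏ p ∈ T, linePoly p.1 x v).coeff M = ∏ i ∈ s, lin i v ^ β i := fun x => by
    have h := Polynomial.coeff_prod_of_natDegree_le (s := T)
      (fun p => linePoly p.1 x v) 1 (fun p _ => natDegree_linePoly _ _ _)
    rw [mul_one, hTcard] at h
    rw [h, ← hTprod v]
    refine Finset.prod_congr rfl fun p _ => ?_
    simp [linePoly]
  obtain ⟨w1, w2, rfl, hw1⟩ : ∃ w1 w2 : Multiset (Fin n → ℂ),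
      w = w1 + w2 ∧ Multiset.card w1 = m + M := by
    refine ⟨(w.toList.take (m + M) : Multiset (Fin n → ℂ)), (w.toList.drop (m + M)), ?_, ?_⟩
    · rw [Multiset.coe_add, List.take_append_drop, Multiset.coe_toList]
    · rw [Multiset.coe_card, List.length_take, Multiset.length_toList]; omega
  obtain ⟨l, rfl⟩ : ∃ l : List (Fin n → ℂ), (l : Multiset (Fin n → ℂ)) = w1 :=
    Quot.exists_rep w1
  have hl : l.length = m + M := by simpa using hw1
  have hprod : (((l : Multiset (Fin n → ℂ))).map (lin k)).prod =
      ∏ r : Fin l.length, lin k l[r] := by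
    rw [Multiset.map_coe, Multiset.prod_coe, ← List.prod_ofFn]
    congr 1
    apply List.ext_getElem <;> simp
  have hsumm : (l.length.factorial : ℂ) •
      ((∏ i ∈ s, lin i v ^ β i) * (((l : Multiset (Fin n → ℂ)) + w2).map (lin k)).prod * G) ∈
      K := by
    have hR : (l.length.factorial : ℂ) •
        ((∏ i ∈ s, lin i v ^ β i) * (((l : Multiset (Fin n → ℂ)) + w2).map (lin k)).prod * G) =
        ∑ B : Finset (Fin l.length), (-1 : Pts a n) ^ (Finset.univ \ B).card *
          ((∏ i ∈ s, lin i v ^ β i) * lin k (∑ r ∈ B, l[r]) ^ (m + M) *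
            (w2.map (lin k)).prod * G) := by
      rw [Nat.cast_smul_eq_nsmul, nsmul_eq_mul, Multiset.map_add, Multiset.prod_add, hprod]
      have h := sum_powerset_pow (fun r : Fin l.length => lin k l[r])
      rw [show (l.length.factorial : Pts a n) *
          ((∏ i ∈ s, lin i v ^ β i) * ((∏ r : Fin l.length, lin k l[r]) * (w2.map (lin k)).prod) * G)
          = ((l.length.factorial : Pts a n) * ∏ r : Fin l.length, lin k l[r]) *
            ((∏ i ∈ s, lin i v ^ β i) * (w2.map (lin k)).prod * G) by ring, ← h, Finset.sum_mul]
      refine Finset.sum_congr rfl fun B _ => ?_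
      rw [lin_finsetSum, ← hl]
      ring
    rw [hR]
    refine Submodule.sum_mem _ fun B _ => ?_
    have h := key M (∑ r ∈ B, l[r]) w2 (by
      rw [Multiset.card_add, Multiset.coe_card] at hw
      omega)
    rw [htop] at h
    rcases neg_one_pow_eq_or (Pts a n) (Finset.univ \ B).card with hs | hs
    · rw [hs, one_mul]; exact h
    · rw [hs, neg_one_mul]; exact Submodule.neg_mem _ h
  exact (Submodule.smul_mem_iff _ (by exact_mod_cast l.length.factorial_ne_zero)).1 hsumm

/-- Forms of multidegree `e` lie in every subspace containing `∏ i, x(p_i) ^ β i` times the forms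
of multidegree `e - β` for all `x`, if `∑ i ≤ k, β i ≤ e k` for all `k`. -/
lemma cover (K : Submodule ℂ (Pts a n)) (e β : Fin a → ℕ)
    (hβ : ∀ k, ∑ i ∈ Finset.Iic k, β i ≤ e k)
    (H : ∀ (x : Fin n → ℂ) (w : Fin a → Multiset (Fin n → ℂ)),
      (∀ i, Multiset.card (w i) + β i = e i) →
      (∏ i, lin i x ^ β i) * ∏ i, ((w i).map (lin i)).prod ∈ K)
    (w : Fin a → Multiset (Fin n → ℂ)) (hw : ∀ i, Multiset.card (w i) = e i) :
    ∏ i, ((w i).map (lin i)).prod ∈ K := by
  classical
  suffices h : ∀ r j : ℕ, j + r = a → ∀ (x : Fin n → ℂ) (w : Fin a → Multiset (Fin n → ℂ)),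
      (∀ i, Multiset.card (w i) + (if (i : ℕ) < j then β i else 0) = e i) →
      (∏ i ∈ Finset.univ.filter (fun i : Fin a => (i : ℕ) < j), lin i x ^ β i) *
        ∏ i, ((w i).map (lin i)).prod ∈ K by
    have h0 := h a 0 (by omega) 0 w (fun i => by simp [hw i])
    simpa using h0
  intro r
  induction r with
  | zero =>
    intro j hj x w hw
    have hlt : ∀ i : Fin a, (i : ℕ) < j := fun i => by have := i.isLt; omega
    rw [Finset.filter_true_of_mem fun i _ => hlt i]
    exact H x w fun i => by simpa [hlt i] using hw i
  | succ r ih =>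
    intro j hj x w hw
    set k : Fin a := ⟨j, by omega⟩ with hk
    set s := Finset.univ.filter (fun i : Fin a => (i : ℕ) < j) with hs
    have hks : k ∉ s := by simp [hs, hk]
    have hins : Finset.univ.filter (fun i : Fin a => (i : ℕ) < j + 1) = insert k s := by
      ext i
      simp [hs, hk, Fin.ext_iff]
      omega
    have hIic : Finset.Iic k = insert k s := by
      ext i
      simp [hs, hk, Fin.ext_iff, Fin.le_iff_val_le_val]
      omega
    have hek : Multiset.card (w k) = e k := by simpa [hk] using hw k
    rw [← Finset.mul_prod_erase Finset.univ _ (Finset.mem_univ k), ← mul_assoc]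
    refine cover_step K _ s β k (m := β k) (e := e k) ?_ ?_ x (w k) hek
    · have := hβ k
      rw [hIic, Finset.sum_insert hks] at this
      omega
    · intro y u hu
      have h := ih (j + 1) (by omega) y (Function.update w k u) (fun i => by
        by_cases hi : i = k
        · subst hi
          simp [hk] at hu ⊢
          omega
        · have hne : (i : ℕ) ≠ j := fun h => hi (Fin.ext h)
          have := hw i
          rw [Function.update_of_ne hi]
          by_cases hij : (i : ℕ) < j
          · simpa [hij, show (i : ℕ) < j + 1 by omega] using this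
          · simpa [hij, show ¬ (i : ℕ) < j + 1 by omega] using this)
      rw [hins, Finset.prod_insert hks,
        ← Finset.mul_prod_erase Finset.univ _ (Finset.mem_univ k), Function.update_self] at h
      convert h using 1
      rw [Finset.prod_congr rfl (fun i hi => by
        rw [Function.update_of_ne (Finset.ne_of_mem_erase hi)] :
          ∀ i ∈ Finset.univ.erase k, ((Function.update w k u i).map (lin i)).prod =
            ((w i).map (lin i)).prod)]
      ring

end Vale.Agent.P181
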