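import Mathlib

/-!
P181: symmetric tensors as functions on index arrays, and the action of matrices.
-/

namespace Vale.Agent.P181

/-- `f` on `a × b` arrays over `Fin n` is invariant under permuting the rows and the entries
inside each row: it is an element of `Sym^a (Sym^b ℂ^n)` inside the tensor power. -/
def IsSymTensor {a b n : ℕ} (f : (Fin a → Fin b → Fin n) → ℂ) : Prop :=
  (∀ (σ : Equiv.Perm (Fin a)) (t : Fin a → Fin b → Fin n), f (fun i => t (σ i)) = f t) ∧
    ∀ (ρ : Fin a → Equiv.Perm (Fin b)) (t : Fin a → Fin b → Fin n),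
      f (fun i l => t i (ρ i l)) = f t

/-- The natural action of a matrix on the tensor power indexed by `Fin a × Fin b`. -/
noncomputable def tensorAct {a b n : ℕ} (g : Matrix (Fin n) (Fin n) ℂ)
    (f : (Fin a → Fin b → Fin n) → ℂ) : (Fin a → Fin b → Fin n) → ℂ :=
  fun t => ∑ s : Fin a → Fin b → Fin n, (∏ i, ∏ l, g (t i l) (s i l)) * f s

end Vale.Agent.P181
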