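import Vale.Agent.P181.Core
import Vale.Agent.P181.Defs

/-!
P181: surjectivity for the products turns into injectivity of the Foulkes-Howe map.
-/

open MvPolynomial

namespace Vale.Agent.P181

variable {a b n : ℕ}

/-- The exponent vector of an index array. -/
noncomputable def countVec (t : Fin a → Fin b → Fin n) : Fin a × Fin n →₀ ℕ :=
  ∑ i, ∑ l, Finsupp.single (i, t i l) 1

lemma countVec_apply (t : Fin a → Fin b → Fin n) (i : Fin a) (j : Fin n) :
    countVec t (i, j) = (Finset.univ.filter fun l => t i l = j).card := by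
  classical
  simp only [countVec, Finsupp.coe_finsetSum, Finset.sum_apply, Finsupp.single_apply,
    Prod.mk.injEq]
  rw [Finset.sum_eq_single i]
  · rw [Finset.card_filter]
    exact Finset.sum_congr rfl fun l _ => by simp
  · intro k _ hk; simp [hk]
  · simp

lemma eq_of_countVec_eq {f : (Fin a → Fin b → Fin n) → ℂ} (hf : IsSymTensor f)
    {t t' : Fin a → Fin b → Fin n} (h : countVec t = countVec t') : f t = f t' := by
  classical
  have hρ : ∀ i, ∃ e : Equiv.Perm (Fin b), ∀ l, t i (e l) = t' i l := fun i => by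
    have hc : ∀ j : Fin n, Fintype.card {l // t' i l = j} = Fintype.card {l // t i l = j} :=
      fun j => by
        rw [Fintype.card_subtype, Fintype.card_subtype, ← countVec_apply, ← countVec_apply, h]
    exact ⟨Equiv.ofFiberEquiv fun j => Fintype.equivOfCardEq (hc j),
      fun l => Equiv.ofFiberEquiv_map _ l⟩
  choose e he using hρ
  rw [← hf.2 e t]
  exact congrArg f (funext fun i => funext fun l => he i l)

lemma prod_lin_eq (w : Fin a → Fin b → Fin n → ℂ) :
    ∏ i, ∏ l, lin i (w i l) =
      ∑ t : Fin a → Fin b → Fin n, monomial (countVec t) (∏ i, ∏ l, w i l (t i l)) := by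
  classical
  simp only [lin, Fintype.prod_sum]
  refine Finset.sum_congr rfl fun t _ => ?_
  rw [countVec, monomial_sum_index, map_prod]
  simp only [Finset.prod_mul_distrib, map_prod]
  congr 1
  refine Finset.prod_congr rfl fun i _ => ?_
  rw [monomial_sum_index]
  simp [X]

/-- Evaluation of a symmetric tensor on forms, as a functional on polynomials. -/
noncomputable def pairing (f : (Fin a → Fin b → Fin n) → ℂ) : Pts a n →ₗ[ℂ] ℂ :=
  (MvPolynomial.basisMonomials (Fin a × Fin n) ℂ).constr ℂ
    (fun E => by classical exact if h : ∃ t, countVec t = E then f h.choose else 0)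

lemma pairing_prod_lin {f : (Fin a → Fin b → Fin n) → ℂ} (hf : IsSymTensor f)
    (w : Fin a → Fin b → Fin n → ℂ) :
    pairing f (∏ i, ∏ l, lin i (w i l)) =
      ∑ t : Fin a → Fin b → Fin n, (∏ i, ∏ l, w i l (t i l)) * f t := by
  classical
  rw [prod_lin_eq, map_sum]
  refine Finset.sum_congr rfl fun t _ => ?_
  have h1 : (monomial (countVec t) (∏ i, ∏ l, w i l (t i l)) : Pts a n) =
      (∏ i, ∏ l, w i l (t i l)) • MvPolynomial.basisMonomials (Fin a × Fin n) ℂ (countVec t) := by
    simp [smul_monomial]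
  have hex : ∃ t', countVec t' = countVec t := ⟨t, rfl⟩
  rw [h1, map_smul, pairing, Module.Basis.constr_basis, dif_pos hex, smul_eq_mul,
    eq_of_countVec_eq hf hex.choose_spec]

lemma eq_zero_of_eval_eq_zero {f : (Fin a → Fin b → Fin n) → ℂ} (hf : IsSymTensor f)
    (h : ∀ v : Fin a → Fin n → ℂ, ∑ t : Fin a → Fin b → Fin n, (∏ i, ∏ l, v i (t i l)) * f t = 0) :
    f = 0 := by
  classical
  set Q : Pts a n := ∑ t : Fin a → Fin b → Fin n, monomial (countVec t) (f t) with hQ
  have hQ0 : Q = 0 := MvPolynomial.funext fun x => by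
    rw [map_zero, ← h fun i j => x (i, j), hQ, map_sum]
    refine Finset.sum_congr rfl fun t _ => ?_
    rw [countVec, monomial_sum_index, map_mul, eval_C, map_prod, mul_comm]
    congr 1
    refine Finset.prod_congr rfl fun i _ => ?_
    rw [monomial_sum_index]
    simp [map_prod, eval_monomial]
  funext t0
  have hc := congrArg (coeff (countVec t0)) hQ0
  rw [hQ, coeff_sum, coeff_zero] at hc
  simp only [coeff_monomial] at hc
  rw [← Finset.sum_filter, Finset.sum_congr rfl
    (fun t ht => eq_of_countVec_eq hf (Finset.mem_filter.1 ht).2), Finset.sum_const,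
    nsmul_eq_mul, mul_eq_zero, Nat.cast_eq_zero, Finset.card_eq_zero] at hc
  refine hc.resolve_left fun he => ?_
  exact (he ▸ Finset.notMem_empty t0)
    (Finset.mem_filter.2 ⟨Finset.mem_univ _, rfl⟩)

/-- The Foulkes-Howe map: transpose and symmetrise each column. -/
noncomputable def foulkesMap (a b n : ℕ) :
    ((Fin a → Fin b → Fin n) → ℂ) →ₗ[ℂ] (Fin b → Fin a → Fin n) → ℂ where
  toFun f u := ∑ σ : Fin b → Equiv.Perm (Fin a), f fun i l => u l (σ l i)
  map_add' f g := by funext u; simp [Finset.sum_add_distrib]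
  map_smul' c f := by funext u; simp [Finset.mul_sum]

lemma foulkesMap_isSymTensor {f : (Fin a → Fin b → Fin n) → ℂ} (hf : IsSymTensor f) :
    IsSymTensor (foulkesMap a b n f) := by
  refine ⟨fun π u => ?_, fun ρ u => ?_⟩
  · refine Fintype.sum_equiv (Equiv.arrowCongr π (Equiv.refl _)) _ _ fun σ => ?_
    conv_rhs => rw [← hf.2 (fun _ => π)]
    simp [Equiv.arrowCongr]
  · refine Fintype.sum_equiv (Equiv.mulLeft ρ) _ _ fun σ => ?_
    simp [Pi.mul_apply, Equiv.Perm.mul_apply]

/-- Transpose an array and permute each column. -/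
def twistEquiv (σ : Fin b → Equiv.Perm (Fin a)) :
    (Fin b → Fin a → Fin n) ≃ (Fin a → Fin b → Fin n) where
  toFun u i l := u l (σ l i)
  invFun t l i := t ((σ l).symm i) l
  left_inv u := by funext l i; simp
  right_inv t := by funext i l; simp

lemma sum_mul_foulkesMap (f : (Fin a → Fin b → Fin n) → ℂ)
    (c : (Fin b → Fin a → Fin n) → ℂ) :
    ∑ u, c u * foulkesMap a b n f u =
      ∑ σ : Fin b → Equiv.Perm (Fin a), ∑ t, c ((twistEquiv σ).symm t) * f t := by
  simp only [foulkesMap, LinearMap.coe_mk, AddHom.coe_mk, Finset.mul_sum]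
  rw [Finset.sum_comm]
  refine Finset.sum_congr rfl fun σ _ => ?_
  exact Fintype.sum_equiv (twistEquiv σ) _ _ fun u => by
    rw [Equiv.symm_apply_apply]; rfl

lemma prod_twist {R : Type*} [CommMonoid R] (σ : Fin b → Equiv.Perm (Fin a))
    (F : Fin b → Fin a → R) : ∏ l, ∏ i, F l i = ∏ i, ∏ l, F l (σ l i) := by
  conv_rhs => rw [Finset.prod_comm]
  exact Finset.prod_congr rfl fun l _ => (Equiv.prod_comp (σ l) (F l)).symm

lemma foulkesMap_tensorAct (g : Matrix (Fin n) (Fin n) ℂ) (f : (Fin a → Fin b → Fin n) → ℂ) :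
    foulkesMap a b n (tensorAct g f) = tensorAct g (foulkesMap a b n f) := by
  funext u
  simp only [tensorAct]
  rw [sum_mul_foulkesMap]
  simp only [foulkesMap, LinearMap.coe_mk, AddHom.coe_mk]
  refine Finset.sum_congr rfl fun σ _ => Finset.sum_congr rfl fun t _ => ?_
  congr 1
  rw [prod_twist σ]
  simp [twistEquiv]

lemma foulkesMap_injective (hb : (a - 1) ^ 2 ≤ b) {f : (Fin a → Fin b → Fin n) → ℂ}
    (hf : IsSymTensor f) (h0 : foulkesMap a b n f = 0) : f = 0 := by
  classical
  refine eq_zero_of_eval_eq_zero hf fun v => ?_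
  have hD : ∀ p ∈ chowSpan a n b, pairing f p = 0 := by
    intro p hp
    refine (Submodule.span_le.2 ?_ : _ ≤ LinearMap.ker (pairing f)) hp
    rintro _ ⟨z, rfl⟩
    simp only [SetLike.mem_coe, LinearMap.mem_ker, allPts]
    rw [Finset.prod_comm, pairing_prod_lin hf]
    have h : ∑ u, (∏ l, ∏ i, z l (u l i)) * foulkesMap a b n f u = 0 := by simp [h0]
    rw [sum_mul_foulkesMap] at h
    have he : ∀ σ : Fin b → Equiv.Perm (Fin a),
        (∑ t, (∏ l, ∏ i, z l ((twistEquiv σ).symm t l i)) * f t) =
          ∑ t : Fin a → Fin b → Fin n, (∏ i, ∏ l, z l (t i l)) * f t := fun σ => by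
      refine Finset.sum_congr rfl fun t _ => ?_
      rw [prod_twist σ]
      simp [twistEquiv]
    simp only [he, Finset.sum_const, Finset.card_univ, nsmul_eq_mul, mul_eq_zero,
      Nat.cast_eq_zero, Fintype.card_ne_zero, false_or] at h
    exact h
  have h := hD _ (symm_pow_mem hb v)
  rw [map_sum] at h
  have he : ∀ σ : Equiv.Perm (Fin a), pairing f (∏ i, lin (σ i) (v i) ^ b) =
      ∑ t : Fin a → Fin b → Fin n, (∏ i, ∏ l, v i (t i l)) * f t := fun σ => by
    have e : ∏ i, lin (σ i) (v i) ^ b = ∏ i, ∏ _l : Fin b, lin i (v (σ.symm i)) := by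
      rw [← Equiv.prod_comp σ (fun i => ∏ _l : Fin b, lin i (v (σ.symm i)))]
      simp
    rw [e, pairing_prod_lin hf]
    refine Fintype.sum_equiv (Equiv.arrowCongr σ.symm (Equiv.refl _)) _ _ fun t => ?_
    congr 1
    · rw [← Equiv.prod_comp σ]
      simp [Equiv.arrowCongr]
    · exact ((hf.1 σ t).symm.trans (by simp [Equiv.arrowCongr, Function.comp_def]))
  simp only [he, Finset.sum_const, Finset.card_univ, nsmul_eq_mul, mul_eq_zero,
    Nat.cast_eq_zero, Fintype.card_ne_zero, false_or] at h
  exact h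

end Vale.Agent.P181
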